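import Vale.Agent.P216FA.Plan
import Vale.Agent.P216KV.RT
import Vale.Agent.P216BF.Scal
import Vale.Agent.P216BF.Ball

/-!
# P216SD/Fwd: forward control of the flow after a birth
-/

open scoped Manifold ContDiff Topology ENNReal
open Set Filter

set_option maxSynthPendingDepth 3

noncomputable section

namespace Vale.Agent.P216SD

open Vale.Agent.P216R Vale.Agent.P216DC Vale.Agent.P216BF Vale.Agent.P216FA

/-- continuity argument on a compact set -/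
theorem boot {X : Type} [TopologicalSpace X] {S : Set X} (hS : IsCompact S) {f : ℝ → X → ℝ}
    {a b c c' : ℝ} (hf : ContinuousOn (fun p : ℝ × X => f p.1 p.2) (Icc a b ×ˢ S)) (hc : c < c')
    (h0 : ∀ y ∈ S, f a y ≤ c')
    (h : ∀ u ∈ Icc a b, (∀ v ∈ Icc a u, ∀ y ∈ S, f v y ≤ c') → ∀ y ∈ S, f u y ≤ c) :
    ∀ u ∈ Icc a b, ∀ y ∈ S, f u y ≤ c' := by
  have hy : ∀ y ∈ S, ContinuousOn (fun u => f u y) (Icc a b) := fun y hy =>
    hf.comp (f := fun u => (u, y)) (by fun_prop) fun u hu => ⟨hu, hy⟩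
  refine fun u hu => IsClosed.Icc_subset_of_forall_mem_nhdsGT_of_Icc_subset
    (s := {u | ∀ y ∈ S, f u y ≤ c'}) ?_ h0 (fun t ht hs => ?_) hu
  · refine isClosed_of_closure_subset fun t ht => ?_
    have h1 : t ∈ Icc a b := closure_minimal inter_subset_right isClosed_Icc ht
    exact ⟨fun y hyS => ContinuousWithinAt.closure_le ht ((hy y hyS t h1).mono inter_subset_right)
      continuousWithinAt_const fun u hu => hu.1 y hyS, h1⟩
  · have ht' := Ico_subset_Icc_self ht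
    have h1 : ∀ᶠ u in 𝓝 t, ∀ y ∈ S, u ∈ Icc a b → y ∈ S → f u y < c' :=
      hS.eventually_forall_of_forall_eventually fun y hyS => by
        have := (hf (t, y) ⟨ht', hyS⟩).eventually_lt_const ((h t ht' hs y hyS).trans_lt hc)
        filter_upwards [eventually_nhdsWithin_iff.1 this] with p hp h1 h2 using hp ⟨h1, h2⟩
    filter_upwards [mem_nhdsWithin_of_mem_nhds h1, Ioc_mem_nhdsGT ht.2] with u h2 h3 y hyS
    exact (h2 y hyS ⟨ht.1.trans h3.1.le, h3.2⟩ hyS).le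

theorem exp_le_two {x : ℝ} (h : x ≤ 1 / 2) : Real.exp x ≤ 2 :=
  (Real.exp_le_exp.2 h).trans
    ((Real.exp_bound_div_one_sub_of_interval (by norm_num) (by norm_num)).trans (by norm_num))

variable {M : Type} [TopologicalSpace M] [ChartedSpace E3 M]

/-- a point of an open ball is joined to the centre inside a compact star shaped set -/
theorem exists_star {g : Ten E3 M} {U : Set M} {z y : M} {R : ℝ} (hy : y ∈ bl g U z R) :
    ∃ K, IsCompact K ∧ y ∈ K ∧ K ⊆ U ∧ ∀ w ∈ K, w ∈ bl g K z R := by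
  obtain ⟨γ, h1, rfl, rfl, h4⟩ := ed_lt_iff.1 hy
  refine ⟨γ '' Icc 0 1, isCompact_Icc.image_of_continuousOn h1.cont,
    mem_image_of_mem _ ⟨zero_le_one, le_rfl⟩, h1.mem.image_subset, ?_⟩
  rintro _ ⟨t, ht, rfl⟩
  exact ((h1.of_mem (mapsTo_image γ _)).ed_le ⟨le_rfl, zero_le_one⟩ ht).trans_lt h4

/-- the ball about `z` at the birth time of `z` -/
abbrev bb (F : Dat M) (z : M) (R : ℝ) : Set M :=
  bl (F.g (F.b z)) (postS F.b F.d (F.b z)) z R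

variable [MeasurableSpace M]

/-- the standing assumptions of the forward argument -/
structure St (F : Dat M) (P : Cs) (lev s : ℝ) (z : M) (R K C : ℝ) : Prop where
  ctl : F.Ctl P lev
  reg : ∀ σ ∈ Ico (F.b z) s, F.D (postS F.b F.d σ) σ z + 2 * R ≤ F.D F.U F.t F.x + lev
  lo : F.t - lev ≤ F.b z
  hi : s ≤ F.t
  le : s ≤ F.d z
  e4 : Real.exp 4 ≤ lev
  ini : ∀ u ∈ bb F z R, Sc (F.g (F.b z)) u ≤ K
  L0 : 0 < P.L
  LK : P.L ≤ K
  K1 : 1 ≤ K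
  C0 : 0 ≤ C
  t1 : 48 * K * (s - F.b z) ≤ 1
  t2 : C * K * (s - F.b z) ≤ 1 / 2
  t3 : s - F.b z < F.h ^ 2 / 2
  rad : 2 * R ≤ F.h / F.δ
  rt : ∀ (I : Set ℝ) (V : Set M) (x : M) (t : ℝ), RF F.g I V → Convex ℝ I →
    (interior I).Nonempty → t ∈ I → x ∈ V → RmB (F.g t) 0 x (P.C * Sc (F.g t) x) →
    RmB (F.g t) 2 x (P.C * Sc (F.g t) x ^ 2) →
    |derivWithin (fun s => Sc (F.g s) x) I t| ≤ C * Sc (F.g t) x ^ 2

variable {F : Dat M} {P : Cs} {lev s R K C σ τ : ℝ} {z : M} {W : Set M}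

namespace St

theorem tT (h : St F P lev s z R K C) : s ≤ F.T₁ := h.hi.trans h.ctl.bas.sl.mem_Icc.2

theorem sl (h : St F P lev s z R K C) (hτ : τ ∈ Ico (F.b z) s) :
    Sl F.b F.d F.T₀ F.T₁ (postS F.b F.d τ) τ :=
  sl_post ⟨(h.ctl.bas.sf.ge z).trans hτ.1, hτ.2.trans_le h.tT⟩

variable [IsManifold 𝓘(ℝ, E3) ∞ M]

/-- pinching -/
theorem sec (h : St F P lev s z R K C) (hW : Sl F.b F.d F.T₀ F.T₁ W τ) (hτ : τ ∈ Icc (F.b z) s)
    {u : M} (hu : u ∈ W) {k : ℝ} (hk : 1 ≤ k) (hs : Sc (F.g τ) u ≤ k) : SecGe (F.g τ) u (-k) := by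
  have h1 := h.ctl.env.pin W τ hW ⟨h.lo.trans hτ.1, hτ.2.trans h.hi⟩ u hu 1 one_pos
  refine secGe_mono (h.ctl.bas.sf.met hW) hu h1 (neg_le_neg (max_le (by linarith) ?_))
  have h2 := h.e4
  rw [div_le_iff₀ ((Real.exp_pos _).trans_le h2), show (3 : ℝ) + 1 / 1 = 4 by norm_num]
  nlinarith [Real.exp_pos 4]

theorem isOpen (h : St F P lev s z R K C) (hσ : σ ∈ Ioc (F.b z) s) : IsOpen (bb F z R) :=
  (h.ctl.bas.sf.met (h.sl ⟨le_rfl, hσ.1.trans_le hσ.2⟩)).isOpen_bl _ _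

theorem rf (h : St F P lev s z R K C) (hσ : σ ∈ Ioc (F.b z) s)
    (hV : bb F z R ⊆ Liv F.b F.d (F.b z) σ) : RF F.g (Icc (F.b z) σ) (bb F z R) :=
  SF.rf_sub (h.ctl.bas.sf.rf _ _ hσ.1 (hσ.2.trans h.tT)) Subset.rfl (h.isOpen hσ) hV

/-- the derivative estimate on a star shaped set on which the curvature is bounded -/
theorem der (h : St F P lev s z R K C) (hσ : σ ∈ Ioc (F.b z) s)
    (hV : bb F z R ⊆ Liv F.b F.d (F.b z) σ) {S : Set M} (hS : S ⊆ bb F z R)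
    (hS' : ∀ w ∈ S, w ∈ bl (F.g (F.b z)) S z R) {u : ℝ} (hu : u ≤ σ)
    (hb : ∀ v ∈ Icc (F.b z) u, ∀ y ∈ S, Sc (F.g v) y ≤ 3 * K) {w : M} (hw : w ∈ S) :
    ∀ τ ∈ Ioo (F.b z) u, P.L < Sc (F.g τ) w →
      |deriv (fun s => Sc (F.g s) w) τ| ≤ C * Sc (F.g τ) w ^ 2 := by
  intro τ hτ hL
  have hK := h.K1
  have hp : ∀ v ∈ Ico (F.b z) u, S ⊆ postS F.b F.d v := fun v hv =>
    hS.trans (hV.trans (liv_subset_postS ⟨hv.1, hv.2.trans_le hu⟩))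
  have hs : ∀ v ∈ Ico (F.b z) u, v ∈ Ico (F.b z) s := fun v hv =>
    ⟨hv.1, (hv.2.trans_le hu).trans_le hσ.2⟩
  have hτ' := Ioo_subset_Ico_self hτ
  have hle : ∀ y ∈ S, ∀ v, F.g τ y v v ≤ 2 ^ 2 * F.g (F.b z) y v v := fun y hy v => by
    have h1 := rf_le_of_ricGe (K := 6 * K) (h.rf hσ hV) (hS hy) hτ.1.le
      (Icc_subset_Icc_right (hτ.2.le.trans hu)) (fun t ht => by
        have ht' : t ∈ Ico (F.b z) u := ⟨ht.1.le, ht.2.trans hτ.2⟩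
        have h2 := h.sl (hs t ht')
        have := ricGe3 finrank_E3 (h.ctl.bas.sf.met h2) (hp t ht' hy)
          (h.sec h2 (Ico_subset_Icc_self (hs t ht')) (hp t ht' hy) (by linarith)
            (hb t (Ico_subset_Icc_self ht') y hy))
        rwa [show 2 * -(3 * K) = -(6 * K) by ring] at this) v
    refine h1.trans (mul_le_mul_of_nonneg_right ?_
      (((h.rf hσ hV).met ⟨le_rfl, hσ.1.le⟩).nonneg (hS hy) v))
    exact (exp_le_two (by nlinarith [h.t1, (hs τ hτ').2])).trans (by norm_num)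
  have hd : dd (F.g τ) (postS F.b F.d τ) z w ≤ 2 * R :=
    (mem_bl_iff.1 (lt_of_le_mul two_pos ((ed_anti (hp τ hτ')).trans (ed_le_mul two_pos hle z w))
      (hS' w hw))).2.le
  have hR := pos_of_mem_bl (hS' w hw)
  have hr := h.reg τ (hs τ hτ')
  have r1 : F.Reg lev lev (postS F.b F.d τ) τ z :=
    ⟨Or.inr ⟨(hs τ hτ').2.trans_le h.hi, rfl⟩, h.lo.trans hτ.1.le,
      ⟨hτ.1.le, (hs τ hτ').2.trans_le h.le⟩, by linarith⟩
  have r2 : F.Reg lev lev (postS F.b F.d τ) τ w :=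
    ⟨r1.prec, r1.le, hp τ hτ' hw, by linarith [h.ctl.env.d1 _ _ _ r1 w (hp τ hτ' hw)]⟩
  have cn := (h.ctl.cn _ _ _ r2 hL.le).dt
  have hI : Icc (F.b z) σ ∈ 𝓝 τ := Icc_mem_nhds hτ.1 (hτ.2.trans_le hu)
  rw [← derivWithin_of_mem_nhds hI]
  exact h.rt _ _ w τ (h.rf hσ hV) (convex_Icc _ _) ⟨τ, mem_interior_iff_mem_nhds.2 hI⟩
    (mem_of_mem_nhds hI) (hS hw) cn.r0 cn.r2

/-- the derivative estimate as long as the ball survives -/
theorem der' (h : St F P lev s z R K C) (hσ : σ ∈ Ioc (F.b z) s)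
    (hV : bb F z R ⊆ Liv F.b F.d (F.b z) σ) {w : M} (hw : w ∈ bb F z R) :
    (∀ τ ∈ Icc (F.b z) σ, Sc (F.g τ) w ≤ 3 * K) ∧ ∀ τ ∈ Ioo (F.b z) σ, P.L < Sc (F.g τ) w →
      |deriv (fun s => Sc (F.g s) w) τ| ≤ C * Sc (F.g τ) w ^ 2 := by
  obtain ⟨S, h1, h2, h3, h4⟩ := exists_star hw
  have hS : S ⊆ bb F z R := fun y hy => bl_anti h3 (h4 y hy)
  have hK := h.K1
  have hf := (h.rf hσ hV).toFam
  have key := boot h1 (f := fun u y => Sc (F.g u) y) (c := 2 * K) (c' := 3 * K)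
    ((sc_cont hf).mono (prod_mono Subset.rfl hS)) (by linarith)
    (fun y hy => by linarith [h.ini y (hS hy)]) fun u hu hb y hy =>
      sc_le_two_mul (SF.fam_sub hf (Icc_subset_Icc_right hu.2) hf.isOpen Subset.rfl) (hS hy) h.L0
        h.C0 (h.der hσ hV hS h4 hu.2 hb hy) ⟨le_rfl, hu.1⟩ ⟨hu.1, le_rfl⟩ h.LK (h.ini y (hS hy))
        (by
          rw [abs_sub_comm, abs_of_nonneg (sub_nonneg.2 hu.1)]
          have := mul_le_mul_of_nonneg_left (show u - F.b z ≤ s - F.b z by linarith [hu.2, hσ.2])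
            (mul_nonneg h.C0 (zero_le_one.trans hK))
          linarith [h.t2])
  exact ⟨fun τ hτ => key τ hτ w h2, h.der hσ hV hS h4 le_rfl key h2⟩

theorem rm (h : St F P lev s z R K C) (hσ : σ ∈ Ioc (F.b z) s)
    (hV : bb F z R ⊆ Liv F.b F.d (F.b z) σ) :
    ∀ τ ∈ Icc (F.b z) σ, ∀ w ∈ bb F z R, RmB (F.g τ) 0 w (12 * K) := fun τ hτ w hw => by
  obtain ⟨W, h1, h2⟩ := h.ctl.bas.sf.exists_sl hσ.1 (hσ.2.trans h.tT) (hV hw) hτ
  have hK := h.K1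
  have h3 := (h.der' hσ hV hw).1 τ hτ
  exact rmB_mono (rmB3 finrank_E3 (h.ctl.bas.sf.met h1) (h2 (hV hw)) (by linarith) (by linarith)
    (h.sec h1 ⟨hτ.1, hτ.2.trans hσ.2⟩ (h2 (hV hw)) (by linarith) h3) h3) (by linarith)

/-- distances at most double -/
theorem dbl (h : St F P lev s z R K C) (hσ : σ ∈ Ioc (F.b z) s)
    (hV : bb F z R ⊆ Liv F.b F.d (F.b z) σ) (hW : bb F z R ⊆ W) :
    bb F z R ⊆ bl (F.g σ) W z (2 * R) := fun w hw => by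
  have hK := h.K1
  refine bl_mono (mul_le_mul_of_nonneg_right ?_ (pos_of_mem_bl hw).le)
    (rf_bl_fwd (h.rf hσ hV) (ricB_of_rmB finrank_E3 (h.rf hσ hV).toFam (h.rm hσ hV))
      ⟨hσ.1.le, le_rfl⟩ ⟨le_rfl, hσ.1.le⟩ Subset.rfl hW le_rfl hw)
  rw [abs_of_nonneg (sub_nonneg.2 hσ.1.le)]
  exact exp_le_two (by nlinarith [h.t1, hσ.2])

/-- no point of the ball dies before `z` -/
theorem alive (h : St F P lev s z R K C) (hσ : σ ∈ Ioc (F.b z) s) (hT : σ < F.T₁)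
    (hV : bb F z R ⊆ Liv F.b F.d (F.b z) σ) (hz : σ < F.d z) :
    bb F z R ⊆ postS F.b F.d σ := by
  by_contra hn
  obtain ⟨w, hw, -⟩ := not_subset.1 hn
  have hR := pos_of_mem_bl hw
  have hz0 : z ∈ postS F.b F.d (F.b z) := ⟨le_rfl, hσ.1.trans hz⟩
  have hp := hV.trans (liv_subset_preS ⟨hσ.1, le_rfl⟩)
  obtain ⟨y, hy, h1⟩ := (h.ctl.bas.srg σ ⟨(h.ctl.bas.sf.ge z).trans_lt hσ.1, hT⟩).died _
    (isPathConnected_bl hz0 hR).isConnected.isPreconnected hp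
    ⟨z, mem_bl_self hz0 hR, hσ.1.le, hz⟩ hn
  have h2 := (h1 (mem_bl_comm.1 (bl_mono h.rad (h.dbl hσ hV hp hy)))).1
  linarith [h.t3, hσ.2]

theorem liv (h : St F P lev s z R K C) :
    bb F z R ⊆ Liv F.b F.d (F.b z) s := by
  intro w hw
  refine ⟨(bl_subset hw).1, not_lt.1 fun hd => ?_⟩
  obtain ⟨_, ⟨u, hu, rfl⟩, hmin⟩ := exists_min_image (F.d '' bb F z R) id
    ((h.ctl.bas.sf.fin.subset subset_union_right).subset (image_subset_range _ _))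
    ⟨_, mem_image_of_mem _ hw⟩
  have h1 : F.d u < s := lt_of_le_of_lt (hmin _ (mem_image_of_mem _ hw)) hd
  exact lt_irrefl _ (h.alive ⟨(bl_subset hu).2, h1.le⟩ (h1.trans_le h.tT)
    (fun y hy => ⟨(bl_subset hy).1, hmin _ (mem_image_of_mem _ hy)⟩) (h1.trans_le h.le) hu).2

/-- the result of the forward argument -/
theorem out (h : St F P lev s z R K C) (hW : Sl F.b F.d F.T₀ F.T₁ W s) (hz : z ∈ W) :
    bb F z R ⊆ bl (F.g s) W z (2 * R) ∧ RF F.g (Icc (F.b z) s) (bb F z R) ∧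
      (∀ τ ∈ Icc (F.b z) s, ∀ w ∈ bb F z R, RmB (F.g τ) 0 w (12 * K)) ∧
      ∀ w ∈ bb F z R, |(max (Sc (F.g s) w) P.L)⁻¹ - (max (Sc (F.g (F.b z)) w) P.L)⁻¹| ≤
        C * (s - F.b z) := by
  rcases (hW.alive hz).1.eq_or_lt with he | hs
  · have e : W = postS F.b F.d (F.b z) := by
      rcases hW with ⟨-, rfl⟩ | ⟨-, rfl⟩
      exacts [absurd he hz.1.ne, by rw [he]]
    subst he
    have hK := h.K1
    have hg := h.ctl.bas.sf.met hW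
    obtain ⟨a, b, h1, h2, h3, -, h4⟩ := hW.exists_liv h.ctl.bas.sf.fin
    refine ⟨fun w hw => e ▸ bl_mono (by linarith [pos_of_mem_bl hw]) hw,
      SF.rf_sub (h.ctl.bas.sf.rf a b h1 h2) (Icc_subset_Icc h3.1 h3.2) ((e ▸ hg).isOpen_bl _ _)
        (h4 ▸ e ▸ bl_subset), fun τ hτ w hw => ?_, fun w _ => by simp⟩
    obtain rfl : τ = F.b z := le_antisymm hτ.2 hτ.1
    have h5 : w ∈ W := e ▸ bl_subset hw
    exact rmB_mono (rmB3 finrank_E3 hg h5 (by linarith) (by linarith)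
      (h.sec hW hτ h5 hK (h.ini w hw)) (h.ini w hw)) (by linarith)
  · have hV := h.liv
    have hσ : s ∈ Ioc (F.b z) s := ⟨hs, le_rfl⟩
    have hsub : bb F z R ⊆ W := by
      rcases hW with ⟨-, rfl⟩ | ⟨h1, rfl⟩
      exacts [hV.trans (liv_subset_preS hσ), h.alive hσ h1.2 hV hz.2]
    refine ⟨h.dbl hσ hV hsub, h.rf hσ hV, h.rm hσ hV, fun w hw => ?_⟩
    have := sc_inv_lip (h.rf hσ hV).toFam hw h.L0 h.C0 (h.der' hσ hV hw).2 ⟨hs.le, le_rfl⟩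
      ⟨le_rfl, hs.le⟩
    rwa [abs_of_nonneg (sub_nonneg.2 hs.le)] at this

end St

theorem setup_num {c C a K u h : ℝ} (c0 : 1 ≤ c) (C0 : 0 ≤ C) (K1 : 1 ≤ K)
    (a4 : 128 * c * a ^ 2 ≤ 1) (a5 : 64 * c * C * a ^ 2 ≤ 1) (hu : u ≤ a ^ 2 / (4 * K)) :
    u ≤ 1 ∧ 48 * (8 * c * K) * u ≤ 1 ∧ C * (8 * c * K) * u ≤ 1 / 2 ∧
      (1 ≤ 8 * K * h ^ 2 → u < h ^ 2 / 2) ∧ K ≤ 8 * c * K := by
  rw [le_div_iff₀ (by linarith)] at hu
  have h1 := mul_le_mul_of_nonneg_left hu (by linarith : 0 ≤ c)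
  have h2 := mul_le_mul_of_nonneg_left h1 C0
  have h3 : a ^ 2 ≤ c * a ^ 2 := by nlinarith [sq_nonneg a]
  refine ⟨by nlinarith, by linarith, by linarith, fun h8 => ?_, by nlinarith⟩
  by_contra h4
  have := mul_le_mul_of_nonneg_left (not_lt.1 h4) (by linarith : 0 ≤ K)
  linarith

theorem exists_a {c C : ℝ} (c0 : 1 ≤ c) (C0 : 0 ≤ C) :
    ∃ a₀ > 0, ∀ a ∈ Ioc 0 a₀, 128 * c * a ^ 2 ≤ 1 ∧ 64 * c * C * a ^ 2 ≤ 1 := by
  refine ⟨1 / (128 * c * (C + 1)), by positivity, fun a ha => ?_⟩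
  have a1 : 128 * c * (C + 1) * a ≤ 1 := by
    have := ha.2
    rwa [le_div_iff₀ (by positivity), mul_comm] at this
  have a0 := ha.1
  have a6 : 0 ≤ c * a * C := by positivity
  have a7 : 0 ≤ c * a := by positivity
  have a3 : a ≤ 1 := by nlinarith
  exact ⟨by nlinarith, by nlinarith⟩

omit [MeasurableSpace M] in
theorem born_le {F : Dat M} {y : M} {a ρ K' r : ℝ} (h : F.Born W s y z ρ (wt a K) K' r) :
    s - F.b z ≤ a ^ 2 / (4 * K) := by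
  have := h.le
  rw [wt] at this
  linarith

/-- the standing assumptions hold after a birth -/
theorem setup0 [IsManifold 𝓘(ℝ, E3) ∞ M] {e c a r T ρ : ℝ} {y : M} (hP : P.Ok e) (hc : 0 < c)
    (hrt : ∀ (I : Set ℝ) (U : Set M) (x : M) (t K₀ K₂ : ℝ), RF F.g I U → Convex ℝ I →
      (interior I).Nonempty → t ∈ I → x ∈ U → RmB (F.g t) 0 x K₀ → RmB (F.g t) 2 x K₂ →
      |derivWithin (fun s => Sc (F.g s) x) I t| ≤ c * (K₂ + K₀ ^ 2))
    (hC : C = c * (P.C + P.C ^ 2)) (a4 : 128 * P.c 0 * a ^ 2 ≤ 1)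
    (a5 : 64 * P.c 0 * C * a ^ 2 ≤ 1) (l1 : T + 1 ≤ lev) (l2 : r + 2 * R ≤ lev)
    (l3 : Real.exp 4 ≤ lev) (hF : F.Ctl P lev) (hy : F.Reg r T W s y) (hK : max P.L 1 ≤ K)
    (hz : F.Born W s y z ρ (wt a K) (4 * K) r) (hδ : F.δ * P.c 0 ≤ 1 / 8)
    (hR : F.δ * R ≤ F.h / 4) :
    1 ≤ 8 * K * F.h ^ 2 ∧ Sl F.b F.d F.T₀ F.T₁ W s ∧ z ∈ W ∧
      St F P lev s z R (8 * P.c 0 * K) C ∧
      ∃ p, Tip P.c (F.g (F.b z)) (postS F.b F.d (F.b z)) p F.h F.δ ∧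
        z ∈ bl (F.g (F.b z)) (postS F.b F.d (F.b z)) p (P.c 0 * F.h) := by
  have c0 := hP.c1 0
  have C1 := hP.C1
  have C0 : 0 ≤ C := by rw [hC]; positivity
  obtain ⟨KL, K1⟩ := max_le_iff.1 hK
  have hh := hF.bas.hpos
  have hd := hF.bas.dpos
  obtain ⟨n1, n2, n3, n4, n5⟩ := setup_num (h := F.h) c0 C0 K1 a4 a5 (born_le hz)
  have hst : s ≤ F.t := hy.prec.elim (fun h => h.1.le) fun h => h.1.le
  have hT := hF.bas.sl.mem_Icc.2
  have hi := hF.env.init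
  have hW : Sl F.b F.d F.T₀ F.T₁ W s := by
    rcases hy.prec with ⟨rfl, rfl⟩ | ⟨h1, rfl⟩
    exacts [hF.bas.sl, sl_post ⟨by linarith [hy.le], h1.trans_le hT⟩]
  have hzW : z ∈ W := cbl_subset hz.mem
  obtain ⟨hb, hd'⟩ := hW.alive hzW
  have hlo : F.t - lev ≤ F.b z := by linarith [hy.le]
  have hz0 : F.b z < F.T₁ ∧ F.b z < F.d z := by
    rcases hW with ⟨h1, rfl⟩ | ⟨h1, rfl⟩
    exacts [⟨hzW.1.trans_le h1.2, hzW.1.trans_le hzW.2⟩, ⟨hb.trans_lt h1.2, hb.trans_lt hzW.2⟩]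
  obtain ⟨p, hp, hzp⟩ := (hF.bas.srg _ ⟨hi.trans_le hlo, hz0.1⟩).born z ⟨le_rfl, hz0.2⟩ rfl
  have d1 : P.c 0 * F.h ≤ F.h / F.δ / 8 := by
    rw [div_right_comm, le_div_iff₀ hd]
    linarith [mul_le_mul_of_nonneg_left hδ hh.le]
  have d2 : R ≤ F.h / F.δ / 4 := by
    rw [div_right_comm, le_div_iff₀ hd]; linarith
  have d3 : 0 < F.h / F.δ := by positivity
  have h8 : 1 ≤ 8 * K * F.h ^ 2 := by
    have h1 := (hp.sc z (bl_mono (by linarith) hzp)).1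
    have h2 := mul_le_mul_of_nonneg_left (hz.sc _ ⟨le_rfl, hb⟩) (sq_nonneg F.h)
    linarith [mul_le_mul_of_nonneg_left c0 hd.le]
  refine ⟨h8, hW, hzW, ⟨hF, fun σ hσ => ?_, hlo, hst, hd', l3, fun u hu => ?_, hP.L0,
    KL.trans n5, K1.trans n5, C0, n2, n3, n4 h8, by linarith,
    fun I V x t h1 h2 h3 h4 h5 h6 h7 => (hrt I V x t _ _ h1 h2 h3 h4 h5 h6 h7).trans_eq
      (by rw [hC]; ring)⟩, p, hp, hzp⟩
  · linarith [hz.reg _ σ (Or.inr ⟨hσ.2, rfl⟩) hσ.1]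
  · have h1 := (hp.sc u (bl_sub_bl' hzp (by linarith) hu)).2
    refine le_of_mul_le_mul_left (h1.trans ?_) (pow_pos hh 2)
    linarith [mul_le_mul_of_nonneg_left h8 (by linarith : 0 ≤ P.c 0)]

/-- the constants of the forward argument -/
theorem setup (P : Cs) {e : ℝ} (hP : P.Ok e) : ∃ C ≥ 0, ∃ a₀ > 0, ∀ a ∈ Ioc 0 a₀,
    64 * P.c 0 * C * a ^ 2 ≤ 1 ∧ ∀ r T R₀ : ℝ, ∃ lev > 0,
    ∀ (X : Mf) (F : Dat X.M) (W : Set X.M) (s : ℝ) (y z : X.M) (K ρ R : ℝ), F.Ctl P lev →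
      F.Reg r T W s y → max P.L 1 ≤ K → F.Born W s y z ρ (wt a K) (4 * K) r →
      F.δ * P.c 0 ≤ 1 / 8 → F.δ * R ≤ F.h / 4 → R ≤ R₀ →
      1 ≤ 8 * K * F.h ^ 2 ∧ Sl F.b F.d F.T₀ F.T₁ W s ∧ z ∈ W ∧
      St F P lev s z R (8 * P.c 0 * K) C ∧
      ∃ p, Tip P.c (F.g (F.b z)) (postS F.b F.d (F.b z)) p F.h F.δ ∧
        z ∈ bl (F.g (F.b z)) (postS F.b F.d (F.b z)) p (P.c 0 * F.h) := by
  obtain ⟨c, hc, hrt⟩ := P216KV.rt
  have C0 : 0 ≤ c * (P.C + P.C ^ 2) := by have := hP.C1; positivity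
  obtain ⟨a₀, h0, ha⟩ := exists_a (hP.c1 0) C0
  refine ⟨_, C0, a₀, h0, fun a h => ⟨(ha a h).2, fun r T R₀ =>
    ⟨max (max (T + 1) (r + 2 * R₀)) (Real.exp 4), lt_max_of_lt_right (Real.exp_pos 4),
      fun X F W s y z K ρ R h1 h2 h3 h4 h5 h6 h7 => setup0 hP hc (hrt _ _) rfl (ha a h).1
        (ha a h).2 (le_max_of_le_left (le_max_left _ _))
        (le_max_of_le_left (le_max_of_le_right (by linarith))) (le_max_right _ _)
        h1 h2 h3 h4 h5 h6⟩⟩⟩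

theorem fwd : FWD := fun P _ hP => by
  obtain ⟨C, -, a₀, h0, H⟩ := setup P hP
  refine ⟨a₀, h0, 96 * P.c 0, by linarith [hP.c1 0], fun a ha r T R => ?_⟩
  obtain ⟨lev, hl, H⟩ := (H a ha).2 r T R
  refine ⟨lev, hl, fun X F W s y z K ρ h1 h2 h3 h4 h5 h6 => ?_⟩
  obtain ⟨k1, k2, k3, k4, k5⟩ := H X F W s y z K ρ R h1 h2 h3 h4 h5 h6 le_rfl
  obtain ⟨o1, o2, o3, -⟩ := k4.out k2 k3
  exact ⟨k1, k5, o1.trans bl_subset, o2, fun σ hσ u hu => rmB_mono (o3 σ hσ u hu) (by linarith)⟩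

theorem rat_num {x y L h ε lo hi lo' hi' : ℝ} (hh : 0 < h) (hL : 0 < L) (h4 : 4 * L * h ≤ 1)
    (hy : h * y ∈ Icc lo hi) (hlo : 1 / 4 < lo) (hlo' : 1 / 4 < lo') (hhi : 0 < hi')
    (hd : |(max x L)⁻¹ - (max y L)⁻¹| ≤ ε * h) (h1 : lo⁻¹ + ε ≤ lo'⁻¹) (h2 : hi'⁻¹ + ε ≤ hi⁻¹) :
    h * x ∈ Icc lo' hi' := by
  have y0 : L < y := by nlinarith [hy.1]
  rw [max_eq_left y0.le] at hd
  obtain ⟨d1, d2⟩ := abs_le.1 hd
  have m0 : 0 < max x L := hL.trans_le (le_max_right _ _)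
  have e1 : y⁻¹ = h * (h * y)⁻¹ := by field_simp
  have e2 : (max x L)⁻¹ = h * (h * max x L)⁻¹ := by field_simp
  have i1 : (h * y)⁻¹ ≤ lo⁻¹ := inv_anti₀ (by linarith) hy.1
  have i2 : hi⁻¹ ≤ (h * y)⁻¹ := inv_anti₀ (by linarith [hy.1]) hy.2
  rw [e1, e2] at d1 d2
  have j1 : lo' ≤ h * max x L := by
    refine (inv_le_inv₀ (mul_pos hh m0) (by linarith)).1 (le_of_mul_le_mul_left ?_ hh)
    nlinarith
  have j2 : h * max x L ≤ hi' := by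
    refine (inv_le_inv₀ hhi (mul_pos hh m0)).1 (le_of_mul_le_mul_left ?_ hh)
    nlinarith
  rcases le_total x L with h5 | h5
  · rw [max_eq_right h5] at j1; nlinarith
  · rw [max_eq_left h5] at j1 j2; exact ⟨j1, j2⟩

theorem rat : RAT := fun P _ hP => by
  obtain ⟨C, C0, a₀, h0, H⟩ := setup P hP
  refine ⟨a₀, h0, fun a ha r T H₀ => ?_⟩
  obtain ⟨hC, H⟩ := H a ha
  obtain ⟨lev, hl, H⟩ := H r T (2 * (P.c 0 * H₀))
  refine ⟨lev, hl, fun X F W s y z K ρ h1 h2 h3 h4 h5 h6 h7 => ?_⟩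
  have c0 := hP.c1 0
  have hh := h1.bas.hpos
  have hd := h1.bas.dpos
  obtain ⟨k1, k2, k3, k4, p, hp, hz⟩ := H X F W s y z K ρ (2 * (P.c 0 * F.h)) h1 h2 h3 h4 h5
    (by nlinarith) (by gcongr)
  obtain ⟨o1, -, -, o4⟩ := k4.out k2 k3
  obtain ⟨q, hq, hq'⟩ := hp.low
  have d1 : P.c 0 * F.h ≤ F.h / F.δ := by rw [le_div_iff₀ hd]; nlinarith
  have hzp := mem_bl_comm.1 hz
  have b1 : p ∈ bb F z (2 * (P.c 0 * F.h)) := bl_mono (by linarith [pos_of_mem_bl hz]) hzp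
  have b2 : q ∈ bb F z (2 * (P.c 0 * F.h)) := bl_sub_bl' hzp (by linarith) hq
  have K0 : 0 < K := one_pos.trans_le (le_of_max_le_right h3)
  have ht : C * (s - F.b z) ≤ (32 * P.c 0)⁻¹ * F.h ^ 2 := by
    have e1 := born_le h4
    have e2 : a ^ 2 / (4 * K) ≤ 2 * a ^ 2 * F.h ^ 2 := by
      rw [div_le_iff₀ (by linarith)]; nlinarith [sq_nonneg a]
    rw [← div_eq_inv_mul, le_div_iff₀ (by linarith)]
    have := mul_le_mul_of_nonneg_left (e1.trans e2) (mul_nonneg C0 (by linarith : 0 ≤ P.c 0))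
    nlinarith [sq_nonneg F.h]
  have e3 : (32 * P.c 0)⁻¹ ≤ 1 / 32 := by
    rw [inv_eq_one_div]; exact one_div_le_one_div_of_le (by norm_num) (by linarith)
  have e4 : (2 * P.c 0)⁻¹ + (32 * P.c 0)⁻¹ ≤ (P.c 0)⁻¹ := by
    have : 0 < (P.c 0)⁻¹ := by positivity
    rw [mul_inv, mul_inv]; linarith
  refine ⟨p, bl_mono (by linarith) (o1 b1), q, bl_mono (by linarith) (o1 b2),
    rat_num (pow_pos hh 2) hP.L0 h7
      ⟨hp.top, (hp.sc p (mem_bl_self hp.mem (by positivity))).2⟩ (by norm_num) (by norm_num)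
      (by linarith) ((o4 p b1).trans ht) (by norm_num at e3 ⊢; linarith) e4,
    rat_num (lo := 7 / 8) (pow_pos hh 2) hP.L0 h7
      ⟨by nlinarith [(hp.sc q (bl_mono d1 hq)).1], hq'⟩ (by norm_num) (by norm_num)
      (by norm_num) ((o4 q b2).trans ht) (by norm_num at e3 ⊢; linarith)
      (by norm_num at e3 ⊢; linarith)⟩

end Vale.Agent.P216SD
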